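import Crest.Agent.N233.Hyp.Mir

/-!
# Row 233 (helper43): the interface between the pieces and the reflection group construction

`Cone Fc` = open cone on the complex with faces `Fc` (sup norm).  A `Fill` is the `F`-cover of a filling
`W ∪ Y × [0, ∞)`: a four-manifold `X` with a map `p` to the cone that is a homeomorphism off the apex
(`p ⁻¹ 0` = the cover of `W`), equivariantly dominated by `T` (a tree).
-/

set_option autoImplicit false
open Set unitInterval
open scoped ENNReal

noncomputable section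

namespace Crest.Agent.N233

/-- the model space -/
abbrev E4 : Type := EuclideanSpace ℝ (Fin 4)

/-- bounded functions with the sup norm -/
abbrev LI (S : Type) : Type := lp (fun _ : S => ℝ) ∞

/-- the cone on the complex with faces `Fc` -/
def Cone {S : Type} (Fc : Set S → Prop) : Set (LI S) := {y | (∀ s, 0 ≤ y s) ∧ Fc {s | y s ≠ 0}}

/-- the faces of a flag complex -/
def Fl {S : Type} (Γ : SimpleGraph S) (A : Set S) : Prop := A.Finite ∧ Γ.IsClique A

/-- an equivariant continuous bicombing (geodesics of a tree) -/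
structure Cmb (F T : Type) [Group F] [TopologicalSpace T] [MulAction F T] where
  c : C(T × T × I, T)
  zero : ∀ a b, c (a, b, 0) = a
  one : ∀ a b, c (a, b, 1) = b
  diag : ∀ a t, c (a, a, t) = a
  smul : ∀ (f : F) a b t, c (f • a, f • b, t) = f • c (a, b, t)

/-- a filling of the cone; `π` is the action of `F` on the vertices -/
structure Fill {S : Type} (Fc : Set S → Prop) (F : Type) [Group F] (π : F → S → S) (T : Type)
    [TopologicalSpace T] [MulAction F T] where
  X : Type
  [top : TopologicalSpace X]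
  [t2 : T2Space X]
  [ch : ChartedSpace E4 X]
  [ne : Nonempty X]
  [act : MulAction F X]
  [cont : ContinuousConstSMul F X]
  [pd : ProperlyDiscontinuousSMul F X]
  free : ∀ (f : F) (x : X), f • x = x → f = 1
  p : C(X, LI S)
  p_mem : ∀ x, p x ∈ Cone Fc
  p_smul : ∀ (f : F) x s, p (f • x) (π f s) = p x s
  j : LI S → X
  j_cont : ContinuousOn j (Cone Fc \ {0})
  pj : ∀ y ∈ Cone Fc, y ≠ 0 → p (j y) = y
  jp : ∀ x, p x ≠ 0 → j (p x) = x
  cpt : ∃ K : Set X, IsCompact K ∧ ∀ x, ‖p x‖ ≤ 1 → ∃ f : F, f • x ∈ K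
  a : C(X, T)
  b : C(T, X)
  h : C(X × I, X)
  a_smul : ∀ (f : F) x, a (f • x) = f • a x
  b_smul : ∀ (f : F) t, b (f • t) = f • b t
  h_smul : ∀ (f : F) x t, h (f • x, t) = f • h (x, t)
  h_zero : ∀ x, h (x, 0) = x
  h_one : ∀ x, h (x, 1) = b (a x)

attribute [instance] Fill.top Fill.t2 Fill.ch Fill.ne Fill.act Fill.cont Fill.pd

open Crest.Agent.N255.Ra in
/-- subgroups of `W ⋊ F` that meet the stabilisers of cubes trivially -/
def Tf {S F : Type} {Γ : SimpleGraph S} [Group F] {ρ : F →* (Γ ≃g Γ)}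
    (G : Subgroup (W Γ ⋊[autHom ρ] F)) : Prop :=
  ∀ g ∈ G, g.right = 1 → ∀ (v : W Γ) (A : Set S), Fl Γ A → v⁻¹ * g.left * v ∈ WT Γ A → g.left = 1

end Crest.Agent.N233

end
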